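import Vale.Agent.N318X.All

/-!
Uniform sparsest cut on cubic bipartite graphs: hardness of approximation, also for minimum
bisection and edge expansion; both questions reduce to cubic bipartite graphs.
-/

open Vale.Agent.N318X

theorem Vale.Agent.Results.P318.A0Cubic.result :
    (∃ C : ℝ, 1 < C ∧ Hard IsCubic Half C ∧
      (Apx IsCubic Proper ratio C ∨ Apx IsCubic Half cut C ∨ Apx IsCubic Small expan C →
        NP ⊆ P)) ∧
    (∀ C C' : ℝ, 1 ≤ C → C < C' → (Hard IsCap Proper C' → Hard IsCubic Proper C) ∧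
      (Apx IsCubic Proper ratio C → Apx IsCap Proper ratio C')) ∧
    (∀ n, 2 ≤ n → ∀ c : Fin n → Fin n → ℝ, ∃ φ v, IsPhi c φ ∧ IsGL c v) ∧
    ∃ g : ℕ → ℝ, (∀ n, 2 ≤ n → IsLUB (gaps IsCap n) (g n)) ∧
      ∀ ε : ℝ, 0 < ε → ∃ J : ℕ, ∀ n, 2 ≤ n → ∀ q, J * n ^ 3 ≤ q →
        ∃ r ∈ gaps IsCubic (2 * n * q ^ 2), g n ≤ (1 + ε) * r :=
  ⟨apx_hard.imp fun _ h => ⟨h.1, h.2.1, fun a => h.2.2 (Or.inr a)⟩,
    fun _ _ h1 h2 => ⟨hard_cubic (h1.trans h2.le) h2, apx_cubic h1 h2⟩,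
    fun _ hn c => ⟨_, _, isPhi hn c, isGL hn c⟩, Vale.Agent.P318.gap, fun _ => isLUB_gap,
    fun _ => gap_cubic⟩
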