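import Vale.Agent.N318U.Loop

namespace Vale.Agent.Results.P318.A0Nonuniform

open Vale.Agent.P318B Vale.Agent.P325 Vale.Agent.N318U

theorem result :
    (∀ C : ℝ, (∃ A, PolyTime A ∧ NApprox C A) → NP ⊆ P) ∧
    ∀ C β : ℝ, 0 < β → NGapHard C β :=
  ⟨np_of_napprox, fun C _ h => gapHard C h⟩

end Vale.Agent.Results.P318.A0Nonuniform
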