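import Vale.Agent.N318.Inst

/-!
The Goemans-Linial integrality gap for uniform demands: the lower bound
`sqrt (log n) / ((log log n) ^ (3 / 2) (log log log n) ^ 135)`, also on graphs of maximum degree
three, for balanced separators, and for the average distortion of embeddings into `ℓ₁`.
-/

open Vale.Agent.P318 Vale.Agent.N318

theorem Vale.Agent.Results.P318.A0Subcubic.result :
    (∃ c : ℝ, 0 < c ∧ ∃ n0 : ℕ, ∀ n : ℕ, n0 ≤ n → c * low n ≤ gap n) ∧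
    (∀ a b : ℝ, 0 < a → 0 ≤ b → b < 1 / 2 → ∃ c : ℝ, 0 < c ∧ ∃ n0 : ℕ, ∀ n : ℕ, n0 ≤ n →
      ∃ G : SimpleGraph (Fin n), Subcubic G ∧ 0 < glValue (edgeCap G) ∧
        c * low n ≤ Phi (edgeCap G) / glValue (edgeCap G) ∧
        ∃ v, IsSepSol b v ∧ ∀ S : Finset (Fin n), a * n ≤ S.card → a * n ≤ Sᶜ.card →
          c * low n * sepValue (edgeCap G) v ≤ ∑ i ∈ S, ∑ j ∈ Sᶜ, edgeCap G i j) ∧
    (∃ c : ℝ, 0 < c ∧ ∃ n0 : ℕ, ∀ n : ℕ, n0 ≤ n →
      ∃ d : Fin n → Fin n → ℝ, IsNegType d ∧ pairSum d = 1 ∧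
        ∀ (k : ℕ) (f : Fin n → Fin k → ℝ), (∀ i j, ∑ a, |f i a - f j a| ≤ d i j) →
          c * low n * (pairSum fun i j => ∑ a, |f i a - f j a|) ≤ 1) := by
  obtain ⟨c, hc, n0, h⟩ := E.final3
  refine ⟨⟨c, hc, n0, h⟩, fun a b => subcubic_sep, c / 4, by positivity, max n0 2,
    fun n hn => ?_⟩
  obtain ⟨d, h1, h2, h3⟩ := distortion ((le_max_right _ _).trans hn)
  refine ⟨d, h1, h2, fun k f hf => ?_⟩
  have a : 0 ≤ pairSum fun i j => ∑ a, |f i a - f j a| :=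
    Finset.sum_nonneg fun _ _ => Finset.sum_nonneg fun _ _ =>
      Finset.sum_nonneg fun _ _ => abs_nonneg _
  have b := mul_le_mul_of_nonneg_right (h n ((le_max_left _ _).trans hn)) a
  linarith [h3 k f hf]
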